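import Vale.Agent.P146.H816.CleanP
import Vale.Agent.P146.H706.LawC

/-!
R1, block C, target (T4) (the h-row): the mean square of a column of a fresh row at fixed bulk is
the normalised square of the matrix.

`A`, `A'` = the columns of two sites, `Z` = the average of the squares of all the columns,
`a`, `a'` = the clean columns; `g` = the average of `|a|²` over the row.
-/

open MeasureTheory ProbabilityTheory

namespace Vale.Agent.P146.H604

open Vale.Agent.P157.Lv Vale.Agent.P146.H712 Vale.Agent.P146.H816 Vale.Agent.P146.H706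

set_option linter.unusedSectionVars false

variable {ι : Type} [Fintype ι] [DecidableEq ι] {q : Type} [Fintype q] [DecidableEq q]
  {R R' : Finset ι} {ρ : Equiv.Perm ι} {b b' : q} {a d a' d' A A' : (ι → ℝ) → q → ℝ}
  {p Z : (ι → ℝ) → ℝ} {M M2 δ ζ lam : ℝ}

/-! ### the clean functional -/

lemma vs_of_one (hb : b ≠ b') {u : (ι → ℝ) → q → ℝ} (h1 : ∀ z, u z b = 1)
    (h0 : ∀ z, u z b' = 0) (z : ι → ℝ) : vs (u z) = 1 + vs (blk b b' u z) := by
  unfold vs blk
  rw [← Finset.add_sum_erase Finset.univ _ (Finset.mem_univ b),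
    ← Finset.add_sum_erase Finset.univ (fun i => (if i = b ∨ i = b' then 0 else u z i) ^ 2)
      (Finset.mem_univ b)]
  simp only [true_or, if_true, h1]
  have : ∀ i ∈ Finset.univ.erase b, u z i ^ 2 = (if i = b ∨ i = b' then 0 else u z i) ^ 2 := by
    intro i hi
    rw [Finset.mem_erase] at hi
    by_cases h : i = b'
    · simp [h, h0]
    · simp [h, hi.1]
  rw [Finset.sum_congr rfl this]
  ring

/-- `E|a|²` at fixed bulk, bulk sites only -/
noncomputable def eF (S : Finset ι) (b b' : q) (a : (ι → ℝ) → q → ℝ) (z : ι → ℝ) : ℝ :=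
  Av S (fun z => vs (blk b b' a z)) z

lemma eg_vs' {u : (ι → ℝ) → q → ℝ} (hu : ∀ i, EG fun z => u z i) : EG fun z => vs (u z) := eg_vs hu

lemma eg_eF (S : Finset ι) (ha : ∀ i, EG fun z => a z i) : EG (eF S b b' a) :=
  eg_Av S (eg_vs (eg_blk ha))

lemma ind_eF (S : Finset ι) : Ind S (eF S b b' a) := ind_Av S _

/-- the two columns at fixed bulk -/
theorem clean_two (h : Two R R' ρ b b' a d a' d') (hb : b ≠ b') (h1 : ∀ z, a z b = 1)
    (h1' : ∀ z, a' z b' = 1) (z : ι → ℝ) :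
    Av (R ∪ R') (fun z => vs (a z) * vs (a' z)) z = (1 + eF (R ∪ R') b b' a z) ^ 2 ∧
      Av (R ∪ R') (fun z => vs (a z)) z = 1 + eF (R ∪ R') b b' a z := by
  have hE : EG fun z => vs (a z) := eg_vs h.ea
  have hI : Ind R' fun z => vs (a z) := by
    intro z w
    unfold vs
    refine Finset.sum_congr rfl fun i _ => ?_
    have := h.ia i z w
    simp only at this
    rw [this]
  have e1 : Av (R ∪ R') (fun z => vs (a z)) z = 1 + eF (R ∪ R') b b' a z := by
    unfold eF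
    have : (fun z => vs (a z)) = fun z => (fun _ => (1 : ℝ)) z + (fun z => vs (blk b b' a z)) z := by
      funext z
      simp only
      exact vs_of_one hb h1 h.a0 z
    rw [this, H816.Av_add (EG.const 1) (eg_vs (eg_blk h.ea)), H816.Av_const]
  refine ⟨?_, e1⟩
  have e2 : ∀ z, vs (a' z) = vs (a (actp ρ z)) := by
    intro z
    have h2 : vs (a' z) = 1 + vs (blk b' b a' z) := vs_of_one hb.symm h1' h.a0' z
    rw [h2, vs_of_one hb h1 h.a0]
    congr 1
    unfold vs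
    refine Finset.sum_congr rfl fun i _ => ?_
    rw [← h.blk_a]
    unfold blk
    by_cases hi : i = b ∨ i = b'
    · rw [if_pos hi, if_pos hi.symm]
    · rw [if_neg hi, if_neg fun h => hi h.symm]
  have e3 : (fun z => vs (a z) * vs (a' z)) = fun z => vs (a z) * (fun z => vs (a z)) (actp ρ z) := by
    funext z
    rw [e2]
  rw [e3, Two.fac h.hR h.hR' h.hρ hE hE hI hI z]
  rw [Av_union_ind hI] at e1
  rw [e1, sq]

/-! ### the data of a pair -/

/-- The bounds which are needed for a pair of sites: moments `M`, `M2`, touches `δ`, `ζ`, changes of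
law `lam`. -/
structure Hp (p : (ι → ℝ) → ℝ) (S : Finset ι) (A A' a a' : (ι → ℝ) → q → ℝ) (Z : (ι → ℝ) → ℝ)
    (M M2 δ ζ lam : ℝ) : Prop where
  ep : EG p
  p0 : ∀ z, 0 ≤ p z
  eA : ∀ i, EG fun z => A z i
  eA' : ∀ i, EG fun z => A' z i
  ea : ∀ i, EG fun z => a z i
  ea' : ∀ i, EG fun z => a' z i
  eZ : EG Z
  Z0 : ∀ z, 0 ≤ Z z
  mA : ∫ z, Av S p z * vs (A z) ^ 3 ∂(gI ι) ≤ M
  mA' : ∫ z, Av S p z * vs (A' z) ^ 3 ∂(gI ι) ≤ M
  ma : ∫ z, Av S p z * vs (a z) ^ 3 ∂(gI ι) ≤ M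
  ma' : ∫ z, Av S p z * vs (a' z) ^ 3 ∂(gI ι) ≤ M
  mZ : ∫ z, Av S p z * Z z ^ 3 ∂(gI ι) ≤ M
  m2 : ∫ z, Av S p z * vs (A z) ^ 2 ∂(gI ι) ≤ M2
  hδ : 0 ≤ δ
  hζ : 0 ≤ ζ
  dA : ∫ z, Av S p z * vs (A z - a z) ∂(gI ι) ≤ δ ^ 2
  dA' : ∫ z, Av S p z * vs (A' z - a' z) ∂(gI ι) ≤ δ ^ 2
  dZ : ∫ z, Av S p z * (Z z - Av S Z z) ^ 2 ∂(gI ι) ≤ ζ ^ 2
  l1 : ∫ z, Av S p z * (vs (A z) * vs (A' z)) ∂(gI ι) ≤
    ∫ z, p z * (vs (A z) * vs (A' z)) ∂(gI ι) + lam
  l2 : ∫ z, p z * (vs (A z) * Z z) ∂(gI ι) ≤ ∫ z, Av S p z * (vs (A z) * Z z) ∂(gI ι) + lam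
  l3 : ∫ z, Av S p z * Z z ^ 2 ∂(gI ι) ≤ ∫ z, p z * Z z ^ 2 ∂(gI ι) + lam

section dms

variable {φ : (ι → ℝ) → ℝ}

/-- Cauchy-Schwarz for a density -/
lemma cs_dm (hφ : EG φ) (h0 : ∀ z, 0 ≤ φ z) {f g : (ι → ℝ) → ℝ} (hf : EG f) (hg : EG g) :
    |∫ z, φ z * (f z * g z) ∂(gI ι)| ≤
      √(∫ z, φ z * f z ^ 2 ∂(gI ι)) * √(∫ z, φ z * g z ^ 2 ∂(gI ι)) := by
  haveI := finite_dm hφ
  have h := (int_mul_le (P := dm φ) hf.meas hg.meas (int_dm hφ h0 (hf.pow 2))
    (int_dm hφ h0 (hg.pow 2))).2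
  rwa [integral_dm hφ h0, integral_dm hφ h0, integral_dm hφ h0] at h

lemma mono_dm (hφ : EG φ) (h0 : ∀ z, 0 ≤ φ z) {f g : (ι → ℝ) → ℝ} (hf : EG f) (hg : EG g)
    (h : ∀ z, f z ≤ g z) : ∫ z, φ z * f z ∂(gI ι) ≤ ∫ z, φ z * g z ∂(gI ι) :=
  integral_mono (hφ.mul hf).integrable (hφ.mul hg).integrable fun z =>
    mul_le_mul_of_nonneg_left (h z) (h0 z)

lemma add_dm (hφ : EG φ) {f g : (ι → ℝ) → ℝ} (hf : EG f) (hg : EG g) :
    ∫ z, φ z * (f z + g z) ∂(gI ι) = ∫ z, φ z * f z ∂(gI ι) + ∫ z, φ z * g z ∂(gI ι) := by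
  rw [← integral_add (hφ.mul hf).integrable (hφ.mul hg).integrable]
  exact integral_congr_ae (Filter.Eventually.of_forall fun z => by simp only; ring)

lemma sub_dm (hφ : EG φ) {f g : (ι → ℝ) → ℝ} (hf : EG f) (hg : EG g) :
    ∫ z, φ z * (f z - g z) ∂(gI ι) = ∫ z, φ z * f z ∂(gI ι) - ∫ z, φ z * g z ∂(gI ι) := by
  rw [← integral_sub (hφ.mul hf).integrable (hφ.mul hg).integrable]
  exact integral_congr_ae (Filter.Eventually.of_forall fun z => by simp only; ring)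

lemma cmul_dm (c : ℝ) (f : (ι → ℝ) → ℝ) :
    ∫ z, φ z * (c * f z) ∂(gI ι) = c * ∫ z, φ z * f z ∂(gI ι) := by
  rw [← integral_const_mul]
  exact integral_congr_ae (Filter.Eventually.of_forall fun z => by simp only; ring)

end dms

/-- **One pair.** -/
theorem hrow_pair (h : Two R R' ρ b b' a d a' d') (hb : b ≠ b') (h1 : ∀ z, a z b = 1)
    (h1' : ∀ z, a' z b' = 1) (hP : Hp p (R ∪ R') A A' a a' Z M M2 δ ζ lam) :
    ∫ z, p z * ((1 + eF (R ∪ R') b b' a z) - Av (R ∪ R') Z z) ^ 2 ∂(gI ι) ≤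
      ∫ z, p z * (vs (A z) * vs (A' z) - 2 * (vs (A z) * Z z) + Z z ^ 2) ∂(gI ι) +
        (4 * lam + 8 * (δ * √M) + 2 * (ζ * √M2)) := by
  set S := R ∪ R' with hS
  set φ := Av S p with hφ
  set g : (ι → ℝ) → ℝ := fun z => 1 + eF S b b' a z with hg
  have hφe : EG φ := eg_Av S hP.ep
  have hφ0 : ∀ z, 0 ≤ φ z := fun z => H816.Av_nonneg hP.p0 z
  have hφi : Ind S φ := ind_Av S _
  have hZb : EG (Av S Z) := eg_Av S hP.eZ
  have hge : EG g := (EG.const 1).add (eg_eF S hP.ea)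
  have hgi : Ind S g := by
    intro z w
    have := ind_eF (b := b) (b' := b') (a := a) S z w
    simp only [hg, this]
  have hZi : Ind S (Av S Z) := ind_Av S _
  have eX : EG fun z => vs (A z) := eg_vs hP.eA
  have eX' : EG fun z => vs (A' z) := eg_vs hP.eA'
  have ex : EG fun z => vs (a z) := eg_vs hP.ea
  have ex' : EG fun z => vs (a' z) := eg_vs hP.ea'
  -- to the law with Gaussian rows
  have s1 : ∫ z, p z * (g z - Av S Z z) ^ 2 ∂(gI ι) =
      ∫ z, φ z * (g z - Av S Z z) ^ 2 ∂(gI ι) := by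
    have hi : Ind S fun z => (g z - Av S Z z) ^ 2 := by
      intro z w
      simp only
      rw [hgi, hZi]
    have e1 : ∫ z, p z * (g z - Av S Z z) ^ 2 ∂(gI ι) =
        ∫ z, Av S (fun z => (g z - Av S Z z) ^ 2 * p z) z ∂(gI ι) := by
      rw [integral_Av S (((hge.sub hZb).pow 2).mul hP.ep)]
      exact integral_congr_ae (Filter.Eventually.of_forall fun z => by simp only; ring)
    rw [e1]
    refine integral_congr_ae (Filter.Eventually.of_forall fun z => ?_)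
    simp only
    rw [Av_mul hi]
    ring
  -- expand
  have s2 : ∫ z, φ z * (g z - Av S Z z) ^ 2 ∂(gI ι) =
      ∫ z, φ z * g z ^ 2 ∂(gI ι) - 2 * ∫ z, φ z * (g z * Av S Z z) ∂(gI ι) +
        ∫ z, φ z * Av S Z z ^ 2 ∂(gI ι) := by
    rw [← cmul_dm, ← sub_dm hφe (hge.pow 2) ((hge.mul hZb).const_mul 2),
      ← add_dm hφe ((hge.pow 2).sub ((hge.mul hZb).const_mul 2)) (hZb.pow 2)]
    exact integral_congr_ae (Filter.Eventually.of_forall fun z => by simp only; ring)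
  -- moments
  haveI := finite_dm hφe
  have sA := s6_of hφe hφ0 hP.eA hP.mA
  have sA' := s6_of hφe hφ0 hP.eA' hP.mA'
  have sa := s6_of hφe hφ0 hP.ea hP.ma
  have sa' := s6_of hφe hφ0 hP.ea' hP.ma'
  have lA := l2d_of hφe hφ0 hP.eA hP.ea hP.hδ hP.dA
  have lA' := l2d_of hφe hφ0 hP.eA' hP.ea' hP.hδ hP.dA'
  have e : ∀ f : (ι → ℝ) → ℝ, ∫ z, f z ∂(dm φ) = ∫ z, φ z * f z ∂(gI ι) :=
    integral_dm hφe hφ0
  have dpvs : ∀ u : q → ℝ, H706.dp u u = vs u := fun u => by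
    unfold H706.dp vs
    exact Finset.sum_congr rfl fun i _ => by ring
  -- the square of the clean mean
  have s3 : ∫ z, φ z * g z ^ 2 ∂(gI ι) ≤
      ∫ z, p z * (vs (A z) * vs (A' z)) ∂(gI ι) + lam + 4 * (δ * √M) := by
    have e1 : ∫ z, φ z * g z ^ 2 ∂(gI ι) = ∫ z, φ z * (vs (a z) * vs (a' z)) ∂(gI ι) := by
      rw [H816.integral_mul_Av (F := fun z => vs (a z) * vs (a' z)) hφe (ex.mul ex') hφi]
      refine integral_congr_ae (Filter.Eventually.of_forall fun z => ?_)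
      simp only
      rw [(clean_two h hb h1 h1' z).1]
    have e2 := (repl sA sA sA' sA' sa sa sa' sa' lA lA lA' lA').2.2
    rw [e, e] at e2
    simp only [dpvs] at e2
    rw [e1]
    have e3 := (abs_le.1 e2).1
    linarith [hP.l1]
  -- the mixed term
  have s4 : ∫ z, p z * (vs (A z) * Z z) ∂(gI ι) ≤
      ∫ z, φ z * (g z * Av S Z z) ∂(gI ι) + lam + ζ * √M2 + 2 * (δ * √M) := by
    have e1 : ∫ z, φ z * (g z * Av S Z z) ∂(gI ι) = ∫ z, φ z * (vs (a z) * Av S Z z) ∂(gI ι) := by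
      have h2 : ∫ z, φ z * (vs (a z) * Av S Z z) ∂(gI ι) =
          ∫ z, (φ z * Av S Z z) * vs (a z) ∂(gI ι) :=
        integral_congr_ae (Filter.Eventually.of_forall fun z => by simp only; ring)
      have h3 : Ind S fun z => φ z * Av S Z z := by
        intro z w
        simp only
        rw [hφi, hZi]
      rw [h2, H816.integral_mul_Av (F := fun z => vs (a z)) (hφe.mul hZb) ex h3]
      refine integral_congr_ae (Filter.Eventually.of_forall fun z => ?_)
      simp only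
      rw [(clean_two h hb h1 h1' z).2]
      ring
    -- `Z` to its average
    have e2 : |∫ z, φ z * (vs (A z) * (Z z - Av S Z z)) ∂(gI ι)| ≤ √M2 * ζ := by
      refine (cs_dm hφe hφ0 eX (hP.eZ.sub hZb)).trans ?_
      refine mul_le_mul (Real.sqrt_le_sqrt hP.m2) ?_ (Real.sqrt_nonneg _) (Real.sqrt_nonneg _)
      exact (Real.sqrt_le_sqrt hP.dZ).trans_eq (Real.sqrt_sq hP.hζ)
    have e3 : ∫ z, φ z * (vs (A z) * (Z z - Av S Z z)) ∂(gI ι) =
        ∫ z, φ z * (vs (A z) * Z z) ∂(gI ι) - ∫ z, φ z * (vs (A z) * Av S Z z) ∂(gI ι) := by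
      rw [← sub_dm hφe (eX.mul hP.eZ) (eX.mul hZb)]
      exact integral_congr_ae (Filter.Eventually.of_forall fun z => by simp only; ring)
    -- the full column to the clean one
    have hM0 : 0 ≤ M := le_trans (integral_nonneg fun z => mul_nonneg (hφ0 z)
      (pow_nonneg (vs_nonneg _) 3)) hP.mA
    have mZb : ∫ z, φ z * Av S Z z ^ 3 ∂(gI ι) ≤ M := by
      refine le_trans ?_ hP.mZ
      rw [H816.integral_mul_Av (F := fun z => Z z ^ 3) hφe (hP.eZ.pow 3) hφi]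
      exact mono_dm hφe hφ0 (hZb.pow 3) (eg_Av S (hP.eZ.pow 3)) fun z => Av_cube hP.eZ hP.Z0 z
    have Zb0 : ∀ z, 0 ≤ Av S Z z := fun z => H816.Av_nonneg hP.Z0 z
    have hmix : ∀ {u : (ι → ℝ) → q → ℝ}, (∀ i, EG fun z => u z i) →
        ∫ z, φ z * vs (u z) ^ 3 ∂(gI ι) ≤ M →
        ∫ z, φ z * (vs (u z) * Av S Z z ^ 2) ∂(gI ι) ≤ M := by
      intro u hu hm
      have eu : EG fun z => vs (u z) := eg_vs hu
      have k1 : ∫ z, φ z * (vs (u z) * Av S Z z ^ 2) ∂(gI ι) ≤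
          ∫ z, φ z * ((1 / 3) * vs (u z) ^ 3 + (2 / 3) * Av S Z z ^ 3) ∂(gI ι) := by
        refine mono_dm hφe hφ0 (eu.mul (hZb.pow 2))
          (((eu.pow 3).const_mul _).add ((hZb.pow 3).const_mul _)) fun z => ?_
        have k2 := vs_nonneg (u z)
        have k3 := Zb0 z
        nlinarith [mul_nonneg (sq_nonneg (vs (u z) - Av S Z z))
          (by linarith : 0 ≤ vs (u z) + 2 * Av S Z z)]
      rw [add_dm hφe ((eu.pow 3).const_mul _) ((hZb.pow 3).const_mul _), cmul_dm, cmul_dm] at k1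
      linarith
    have e4 : |∫ z, φ z * (vs (A z) * Av S Z z - vs (a z) * Av S Z z) ∂(gI ι)| ≤
        2 * (δ * √M) := by
      have k1 : ∀ z, vs (A z) - vs (a z) = H706.dp (A z - a z) (A z + a z) := by
        intro z
        unfold vs H706.dp
        rw [← Finset.sum_sub_distrib]
        refine Finset.sum_congr rfl fun i _ => ?_
        simp only [Pi.sub_apply, Pi.add_apply]
        ring
      have k2 : ∀ z, |vs (A z) * Av S Z z - vs (a z) * Av S Z z| ≤
          √(vs (A z - a z)) * √(vs (A z + a z) * Av S Z z ^ 2) := by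
        intro z
        rw [← Real.sqrt_mul (vs_nonneg _)]
        refine Real.abs_le_sqrt ?_
        have k3 : vs (A z) * Av S Z z - vs (a z) * Av S Z z =
            H706.dp (A z - a z) (A z + a z) * Av S Z z := by rw [← k1]; ring
        rw [k3, mul_pow]
        have k4 := H706.dp_sq_le (A z - a z) (A z + a z)
        nlinarith [mul_le_mul_of_nonneg_right k4 (sq_nonneg (Av S Z z))]
      have eD : EG fun z => vs (A z - a z) := eg_vs fun i => (hP.eA i).sub (hP.ea i)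
      have eP : EG fun z => vs (A z + a z) := eg_vs fun i => (hP.eA i).add (hP.ea i)
      have hint1 := int_dm hφe hφ0 eD
      have hint2 := int_dm hφe hφ0 (eP.mul (hZb.pow 2))
      have k5 : |∫ z, φ z * (vs (A z) * Av S Z z - vs (a z) * Av S Z z) ∂(gI ι)| ≤
          √(∫ z, vs (A z - a z) ∂(dm φ)) * √(∫ z, vs (A z + a z) * Av S Z z ^ 2 ∂(dm φ)) := by
        have hm1 : Measurable fun z => √(vs (A z - a z)) := eD.meas.sqrt
        have hm2 : Measurable fun z => √(vs (A z + a z) * Av S Z z ^ 2) :=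
          (eP.mul (hZb.pow 2)).meas.sqrt
        have q1 : ∀ z, √(vs (A z - a z)) ^ 2 = vs (A z - a z) := fun z =>
          Real.sq_sqrt (vs_nonneg _)
        have q2 : ∀ z, √(vs (A z + a z) * Av S Z z ^ 2) ^ 2 = vs (A z + a z) * Av S Z z ^ 2 :=
          fun z => Real.sq_sqrt (mul_nonneg (vs_nonneg _) (sq_nonneg _))
        obtain ⟨j1, j2⟩ := int_mul_le (P := dm φ) hm1 hm2 (by simp only [q1]; exact hint1)
          (by simp only [q2]; exact hint2)
        simp only [q1, q2] at j2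
        refine le_trans ?_ ((le_abs_self _).trans j2)
        rw [← e]
        refine (abs_integral_le_integral_abs).trans ?_
        exact integral_mono (int_dm hφe hφ0 ((eX.mul hZb).sub (ex.mul hZb))).abs j1 k2
      refine k5.trans ?_
      rw [e, e]
      have k6 : ∫ z, φ z * (vs (A z + a z) * Av S Z z ^ 2) ∂(gI ι) ≤ 4 * M := by
        have k7 : ∫ z, φ z * (vs (A z + a z) * Av S Z z ^ 2) ∂(gI ι) ≤
            ∫ z, φ z * (2 * (vs (A z) * Av S Z z ^ 2) + 2 * (vs (a z) * Av S Z z ^ 2)) ∂(gI ι) := by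
          refine mono_dm hφe hφ0 (eP.mul (hZb.pow 2)) (((eX.mul (hZb.pow 2)).const_mul _).add
            ((ex.mul (hZb.pow 2)).const_mul _)) fun z => ?_
          have k8 : vs (A z + a z) ≤ 2 * vs (A z) + 2 * vs (a z) := by
            have := vs_sub_le (A z) (-a z)
            rw [sub_neg_eq_add] at this
            have k9 : vs (-a z) = vs (a z) := by
              unfold vs
              exact Finset.sum_congr rfl fun i _ => by simp
            rwa [k9] at this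
          nlinarith [mul_le_mul_of_nonneg_right k8 (sq_nonneg (Av S Z z))]
        rw [add_dm hφe ((eX.mul (hZb.pow 2)).const_mul _) ((ex.mul (hZb.pow 2)).const_mul _),
          cmul_dm, cmul_dm] at k7
        linarith [hmix hP.eA hP.mA, hmix hP.ea hP.ma]
      have k10 : √(4 * M) = 2 * √M := by
        rw [Real.sqrt_mul (by norm_num : (0 : ℝ) ≤ 4)]
        congr 1
        rw [show (4 : ℝ) = 2 ^ 2 by norm_num]
        exact Real.sqrt_sq (by norm_num)
      calc √(∫ z, φ z * vs (A z - a z) ∂(gI ι)) *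
            √(∫ z, φ z * (vs (A z + a z) * Av S Z z ^ 2) ∂(gI ι))
          ≤ δ * (2 * √M) := by
            refine mul_le_mul ((Real.sqrt_le_sqrt hP.dA).trans_eq (Real.sqrt_sq hP.hδ)) ?_
              (Real.sqrt_nonneg _) hP.hδ
            exact (Real.sqrt_le_sqrt k6).trans_eq k10
        _ = 2 * (δ * √M) := by ring
    rw [sub_dm hφe (eX.mul hZb) (ex.mul hZb)] at e4
    rw [e1]
    rw [e3] at e2
    have e5 := (abs_le.1 e2).2
    have e6 := (abs_le.1 e4).2
    linarith [hP.l2]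
  have s5 : ∫ z, φ z * Av S Z z ^ 2 ∂(gI ι) ≤ ∫ z, p z * Z z ^ 2 ∂(gI ι) + lam := by
    refine le_trans ?_ hP.l3
    rw [H816.integral_mul_Av (F := fun z => Z z ^ 2) hφe (hP.eZ.pow 2) hφi]
    exact mono_dm hφe hφ0 (hZb.pow 2) (eg_Av S (hP.eZ.pow 2)) fun z => Av_sq_le hP.eZ z
  have s6 : ∫ z, p z * (vs (A z) * vs (A' z) - 2 * (vs (A z) * Z z) + Z z ^ 2) ∂(gI ι) =
      ∫ z, p z * (vs (A z) * vs (A' z)) ∂(gI ι) - 2 * ∫ z, p z * (vs (A z) * Z z) ∂(gI ι) +
        ∫ z, p z * Z z ^ 2 ∂(gI ι) := by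
    rw [← cmul_dm, ← sub_dm hP.ep (eX.mul eX') ((eX.mul hP.eZ).const_mul 2),
      ← add_dm hP.ep ((eX.mul eX').sub ((eX.mul hP.eZ).const_mul 2)) (hP.eZ.pow 2)]
  rw [s1, s2, s6]
  linarith

/-! ### the sum over the pairs -/

/-- the sum of the exact terms is not positive -/
lemma sum_pairs_nonpos {X : q → ℝ} {Z : ℝ} (h : ∑ b, X b = (Fintype.card q : ℝ) * Z) :
    ∑ b, ∑ b' ∈ Finset.univ.erase b, (X b * X b' - 2 * (X b * Z) + Z ^ 2) ≤ 0 := by
  have e1 : ∀ b, ∑ b' ∈ Finset.univ.erase b, (X b * X b' - 2 * (X b * Z) + Z ^ 2) =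
      X b * (∑ b', X b') + (Fintype.card q : ℝ) * (-(2 * (X b * Z)) + Z ^ 2) -
        (X b ^ 2 - 2 * (X b * Z) + Z ^ 2) := by
    intro b
    rw [← Finset.sum_erase_add (Finset.univ : Finset q) X (Finset.mem_univ b)]
    have h2 : ((Finset.univ.erase b).card : ℝ) = (Fintype.card q : ℝ) - 1 := by
      rw [Finset.card_erase_of_mem (Finset.mem_univ b), Finset.card_univ,
        Nat.cast_sub (Fintype.card_pos_iff.2 ⟨b⟩)]
      simp
    simp only [Finset.sum_add_distrib, Finset.sum_sub_distrib, Finset.sum_const, nsmul_eq_mul, h2,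
      ← Finset.mul_sum]
    ring
  simp only [e1]
  have e2 : ∑ b, (X b * (∑ b', X b') + (Fintype.card q : ℝ) * (-(2 * (X b * Z)) + Z ^ 2) -
        (X b ^ 2 - 2 * (X b * Z) + Z ^ 2)) =
      (∑ b, X b) ^ 2 + (Fintype.card q : ℝ) * (-(2 * ((∑ b, X b) * Z)) +
        (Fintype.card q : ℝ) * Z ^ 2) - (∑ b, X b ^ 2 - 2 * ((∑ b, X b) * Z) +
          (Fintype.card q : ℝ) * Z ^ 2) := by
    simp only [Finset.sum_add_distrib, Finset.sum_sub_distrib, ← Finset.mul_sum, ← Finset.sum_mul,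
      Finset.sum_neg_distrib, Finset.sum_const, nsmul_eq_mul, Finset.card_univ]
    ring
  rw [e2, h]
  have h3 : (∑ b, X b) ^ 2 ≤ (Fintype.card q : ℝ) * ∑ b, X b ^ 2 := by
    have := sq_sum_le_card_mul_sum_sq (s := (Finset.univ : Finset q)) (f := X)
    rwa [Finset.card_univ] at this
  rw [h] at h3
  rcases Nat.eq_zero_or_pos (Fintype.card q) with h0 | h0
  · haveI : IsEmpty q := Fintype.card_eq_zero_iff.1 h0
    simp
  · have h4 : (0 : ℝ) < (Fintype.card q : ℝ) := by exact_mod_cast h0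
    have h5 : (Fintype.card q : ℝ) * Z ^ 2 ≤ ∑ b, X b ^ 2 := by
      have : (Fintype.card q : ℝ) * ((Fintype.card q : ℝ) * Z ^ 2) ≤
          (Fintype.card q : ℝ) * ∑ b, X b ^ 2 := by nlinarith
      exact le_of_mul_le_mul_left this h4
    nlinarith

/-- **The h-row**, summed over the ordered pairs of sites. -/
theorem hrow_sum {Rb : q → Finset ι} {ρ : q → q → Equiv.Perm ι} {A : q → (ι → ℝ) → q → ℝ}
    {a d : q → q → (ι → ℝ) → q → ℝ} {M M2 δ ζ lam : q → q → ℝ} (hp : EG p)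
    (hA : ∀ b i, EG fun z => A b z i) (hZe : EG Z)
    (hT : ∀ b b', b ≠ b' → Two (Rb b) (Rb b') (ρ b b') b b' (a b b') (d b b') (a b' b) (d b' b))
    (h1 : ∀ b b', b ≠ b' → ∀ z, a b b' z b = 1)
    (hP : ∀ b b', b ≠ b' → Hp p (Rb b ∪ Rb b') (A b) (A b') (a b b') (a b' b) Z (M b b')
      (M2 b b') (δ b b') (ζ b b') (lam b b'))
    (hZ : ∀ z, ∑ b, vs (A b z) = (Fintype.card q : ℝ) * Z z) (p0 : ∀ z, 0 ≤ p z) :
    ∑ b, ∑ b' ∈ Finset.univ.erase b, ∫ z, p z * ((1 + eF (Rb b ∪ Rb b') b b' (a b b') z) -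
        Av (Rb b ∪ Rb b') Z z) ^ 2 ∂(gI ι) ≤
      ∑ b, ∑ b' ∈ Finset.univ.erase b,
        (4 * lam b b' + 8 * (δ b b' * √(M b b')) + 2 * (ζ b b' * √(M2 b b'))) := by
  have h2 : ∀ b, ∀ b' ∈ Finset.univ.erase b,
      ∫ z, p z * ((1 + eF (Rb b ∪ Rb b') b b' (a b b') z) - Av (Rb b ∪ Rb b') Z z) ^ 2 ∂(gI ι) ≤
      ∫ z, p z * (vs (A b z) * vs (A b' z) - 2 * (vs (A b z) * Z z) + Z z ^ 2) ∂(gI ι) +
        (4 * lam b b' + 8 * (δ b b' * √(M b b')) + 2 * (ζ b b' * √(M2 b b'))) := by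
    intro b b' hb
    have hne : b ≠ b' := fun h => (Finset.mem_erase.1 hb).1 h.symm
    exact hrow_pair (hT b b' hne) hne (h1 b b' hne) (h1 b' b hne.symm) (hP b b' hne)
  refine (Finset.sum_le_sum fun b _ => Finset.sum_le_sum (h2 b)).trans ?_
  simp only [Finset.sum_add_distrib (f := fun b' => ∫ z, p z * _ ∂(gI ι))]
  simp only [Finset.sum_add_distrib (s := (Finset.univ : Finset q))
    (f := fun b => ∑ b' ∈ Finset.univ.erase b, ∫ z, p z * _ ∂(gI ι))]
  have h3 : ∑ b, ∑ b' ∈ Finset.univ.erase b,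
      ∫ z, p z * (vs (A b z) * vs (A b' z) - 2 * (vs (A b z) * Z z) + Z z ^ 2) ∂(gI ι) ≤ 0 := by
    have ei : ∀ b b', Integrable (fun z => p z * (vs (A b z) * vs (A b' z) -
        2 * (vs (A b z) * Z z) + Z z ^ 2)) (gI ι) := fun b b' =>
      (hp.mul ((((eg_vs (hA b)).mul (eg_vs (hA b'))).sub
        (((eg_vs (hA b)).mul hZe).const_mul 2)).add (hZe.pow 2))).integrable
    have e1 : ∑ b, ∑ b' ∈ Finset.univ.erase b,
        ∫ z, p z * (vs (A b z) * vs (A b' z) - 2 * (vs (A b z) * Z z) + Z z ^ 2) ∂(gI ι) =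
        ∫ z, p z * ∑ b, ∑ b' ∈ Finset.univ.erase b,
          (vs (A b z) * vs (A b' z) - 2 * (vs (A b z) * Z z) + Z z ^ 2) ∂(gI ι) := by
      simp only [Finset.mul_sum]
      rw [integral_finsetSum _ fun b _ => integrable_finsetSum _ fun b' _ => ei b b']
      refine Finset.sum_congr rfl fun b _ => ?_
      rw [integral_finsetSum _ fun b' _ => ei b b']
    rw [e1]
    refine integral_nonpos fun z => mul_nonpos_of_nonneg_of_nonpos (p0 z) ?_
    exact sum_pairs_nonpos (hZ z)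
  linarith

end Vale.Agent.P146.H604
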