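import Vale.Agent.P146.H816.SkT
import Vale.Agent.P146.H826.LawP
import Vale.Agent.P146.H604.HRow

/-!
R1, block C, target (T4) (the h-row) for the SK model, in the objects of `CDef`, at both times.
-/

open MeasureTheory ProbabilityTheory

namespace Vale.Agent.P146.R1C

open Vale.Agent.P157.Lv Vale.Agent.P146.H425 Vale.Agent.P146.H332 Vale.Agent.P146.H325
  Vale.Agent.P146.H712 Vale.Agent.P146.R1 Vale.Agent.P146.H816 Vale.Agent.P146.H604 Matrix

set_option linter.unusedSectionVars false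

variable {n : ℕ} {k : ℝ} {q : Par} {F : (Pair n → ℝ) → ℝ} {D : Pair n → (Pair n → ℝ) → ℝ}
  {B L : ℝ} {M δ lam M2 ζ : Fin n → Fin n → ℝ}
  {A : (K4 (Pair n) → ℝ) → Matrix (Fin n) (Fin n) ℝ}

/-- the normalized square of a matrix -/
noncomputable def Zn (A : (K4 (Pair n) → ℝ) → Matrix (Fin n) (Fin n) ℝ) (w : K4 (Pair n) → ℝ) : ℝ :=
  fr (A w) / n

lemma eg_fr (hA : ∀ i j, EG fun w => A w i j) : EG fun w => fr (A w) := by
  unfold fr
  exact EG.sum _ fun i _ => EG.sum _ fun j _ => (hA i j).pow 2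

lemma eg_Zn (hA : ∀ i j, EG fun w => A w i j) : EG (Zn A) := by
  have h : Zn A = fun w => (n : ℝ)⁻¹ * fr (A w) := by
    funext w
    unfold Zn
    rw [div_eq_inv_mul]
  rw [h]
  exact (eg_fr hA).const_mul _

lemma Zn_nonneg (w : K4 (Pair n) → ℝ) : 0 ≤ Zn A w := div_nonneg (H332.fr_nonneg _) (Nat.cast_nonneg n)

lemma sum_vs_col (C : Matrix (Fin n) (Fin n) ℝ) :
    ∑ b, H706.vs (H816.col C b) = (Fintype.card (Fin n) : ℝ) * (fr C / n) := by
  rw [Fintype.card_fin]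
  have h1 : ∑ b, H706.vs (H816.col C b) = fr C := sum_vn_col C
  rw [h1]
  rcases Nat.eq_zero_or_pos n with h | h
  · subst h
    simp [fr]
  · have h2 : (n : ℝ) ≠ 0 := by positivity
    field_simp

/-- The inputs of the h-row at one time (besides `PrSk`): the third moment of `Zn A`, the second
moments of the columns, the touch `ζ` of `Zn A`, the law change of the three functionals. -/
structure HIn (q : Par) (F : (Pair n → ℝ) → ℝ) (A : (K4 (Pair n) → ℝ) → Matrix (Fin n) (Fin n) ℝ)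
    (M M2 ζ lam : Fin n → Fin n → ℝ) : Prop where
  eA : ∀ i j, EG fun w => A w i j
  mZ : ∀ b b', b' ≠ b → ∫ w, ph q F b b' w * Zn A w ^ 3 ∂(gI (K4 (Pair n))) ≤ M b b'
  m2 : ∀ b b', b' ≠ b →
    ∫ w, ph q F b b' w * H706.vs (H816.col (A w) b) ^ 2 ∂(gI (K4 (Pair n))) ≤ M2 b b'
  hζ : ∀ b b', b' ≠ b → 0 ≤ ζ b b'
  dZ : ∀ b b', b' ≠ b → ∫ w, ph q F b b' w *
    (Zn A w - Av (lf (row b ∪ row b')) (Zn A) w) ^ 2 ∂(gI (K4 (Pair n))) ≤ ζ b b' ^ 2
  l1 : ∀ b b', b' ≠ b →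
    ∫ w, ph q F b b' w * (H706.vs (H816.col (A w) b) * H706.vs (H816.col (A w) b'))
      ∂(gI (K4 (Pair n))) ≤
    ∫ w, dens q F w * (H706.vs (H816.col (A w) b) * H706.vs (H816.col (A w) b'))
      ∂(gI (K4 (Pair n))) + lam b b'
  l2 : ∀ b b', b' ≠ b →
    ∫ w, dens q F w * (H706.vs (H816.col (A w) b) * Zn A w) ∂(gI (K4 (Pair n))) ≤
    ∫ w, ph q F b b' w * (H706.vs (H816.col (A w) b) * Zn A w) ∂(gI (K4 (Pair n))) + lam b b'
  l3 : ∀ b b', b' ≠ b →
    ∫ w, ph q F b b' w * Zn A w ^ 2 ∂(gI (K4 (Pair n))) ≤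
    ∫ w, dens q F w * Zn A w ^ 2 ∂(gI (K4 (Pair n))) + lam b b'

lemma dens_nonneg (w : K4 (Pair n) → ℝ) : 0 ≤ dens q F w := by
  rw [dens_eq]; exact (Real.exp_pos _).le

/-- the data of a pair at the time `s1` -/
lemma hp1 (h : C11 F D B L) (hx : 0 < q.x) (hP : PrSk k q F M δ)
    (hI : HIn q F (A1 k q) M M2 ζ lam) {b b' : Fin n} (hb : b' ≠ b) :
    Hp (dens q F) (lf (row b) ∪ lf (row b')) (fun w => H816.col (A1 k q w) b)
      (fun w => H816.col (A1 k q w) b') (a1 k q b b') (a1 k q b' b) (Zn (A1 k q)) (M b b')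
      (M2 b b') (δ b b') (ζ b b') (lam b b') := by
  have e : lf (row b) ∪ lf (row b') = lf (row b ∪ row b') := (lf_union _ _).symm
  rw [e]
  have p := hP b b' hb
  exact
    { ep := eg_dens h hx
      p0 := dens_nonneg
      eA := p.eA
      eA' := p.eA'
      ea := fun i => eg_P2 (eg_cl b b' i)
      ea' := p.ea'
      eZ := eg_Zn hI.eA
      Z0 := Zn_nonneg
      mA := p.mA
      mA' := p.mA'
      ma := p.ma
      ma' := p.ma'
      mZ := hI.mZ b b' hb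
      m2 := hI.m2 b b' hb
      hδ := p.hδ
      hζ := hI.hζ b b' hb
      dA := p.dA
      dA' := p.dA'
      dZ := hI.dZ b b' hb
      l1 := hI.l1 b b' hb
      l2 := hI.l2 b b' hb
      l3 := hI.l3 b b' hb }

/-- the data of a pair at the time `s2` -/
lemma hp2 (h : C11 F D B L) (hx : 0 < q.x) (hP : PrSk k q F M δ)
    (hI : HIn q F (A2 k q) M M2 ζ lam) {b b' : Fin n} (hb : b' ≠ b) :
    Hp (dens q F) (lf (row b) ∪ lf (row b')) (fun w => H816.col (A2 k q w) b)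
      (fun w => H816.col (A2 k q w) b') (a2 k q b b') (a2 k q b' b) (Zn (A2 k q)) (M b b')
      (M2 b b') (δ b b') (ζ b b') (lam b b') := by
  have e : lf (row b) ∪ lf (row b') = lf (row b ∪ row b') := (lf_union _ _).symm
  rw [e]
  have p := hP b b' hb
  exact
    { ep := eg_dens h hx
      p0 := dens_nonneg
      eA := p.eD
      eA' := p.eD'
      ea := fun i => eg_P3 (eg_cl b b' i)
      ea' := p.ed'
      eZ := eg_Zn hI.eA
      Z0 := Zn_nonneg
      mA := p.mD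
      mA' := p.mD'
      ma := p.md
      ma' := p.md'
      mZ := hI.mZ b b' hb
      m2 := hI.m2 b b' hb
      hδ := p.hδ
      hζ := hI.hζ b b' hb
      dA := p.dD
      dA' := p.dD'
      dZ := hI.dZ b b' hb
      l1 := hI.l1 b b' hb
      l2 := hI.l2 b b' hb
      l3 := hI.l3 b b' hb }

/-- exchange of the two columns -/
lemma Two_symm {ι : Type} [Fintype ι] [DecidableEq ι] {q : Type} [Fintype q] [DecidableEq q]
    {R R' : Finset ι} {ρ : Equiv.Perm ι} {b b' : q} {a d a' d' : (ι → ℝ) → q → ℝ}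
    (h : Two R R' ρ b b' a d a' d') : Two R R' ρ b b' d a d' a' :=
  { ea := h.ed
    ed := h.ea
    ia := h.id
    id := h.ia
    a0 := h.d0
    d0 := h.a0
    a0' := h.d0'
    d0' := h.a0'
    ha := h.hd
    hd := h.ha
    hR := h.hR
    hR' := h.hR'
    hρ := h.hρ }

/-- the mean square of the clean column in the objects of `CDef` -/
lemma eF1 (hq : q.Ok) (b b' : Fin n) (w : K4 (Pair n) → ℝ) :
    eF (lf (row b ∪ row b')) b b' (a1 k q b b') w = ee k q.x q.s1 b b' (P2 q w) := by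
  unfold eF ee
  have he : EG fun z => ∑ i, cl0 k q.x q.s1 b b' z i ^ 2 := by
    refine EG.sum _ fun i _ => ?_
    unfold cl0
    by_cases hi : i = b ∨ i = b'
    · simp only [hi, if_true]
      exact (EG.const 0).pow 2
    · simp only [hi, if_false]
      exact (eg_cl b b' i).pow 2
  rw [← Av_lf_P2 hq he]
  rfl

lemma eF2 (hq : q.Ok) (b b' : Fin n) (w : K4 (Pair n) → ℝ) :
    eF (lf (row b ∪ row b')) b b' (a2 k q b b') w = ee k q.x q.s2 b b' (P3 q w) := by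
  unfold eF ee
  have he : EG fun z => ∑ i, cl0 k q.x q.s2 b b' z i ^ 2 := by
    refine EG.sum _ fun i _ => ?_
    unfold cl0
    by_cases hi : i = b ∨ i = b'
    · simp only [hi, if_true]
      exact (EG.const 0).pow 2
    · simp only [hi, if_false]
      exact (eg_cl b b' i).pow 2
  rw [← Av_lf_P3 hq he]
  rfl

/-- the average of `Zn` in the objects of `CDef` -/
lemma AvZ1 (hq : q.Ok) (R : Finset (Pair n)) (w : K4 (Pair n) → ℝ) :
    Av (lf R) (Zn (A1 k q)) w = AvP q.s1 R (fun z => fr (AA k q.x q.s1 z) / n) (P2 q w) := by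
  have he : EG fun z : Pair n → ℝ => fr (AA k q.x q.s1 z) / n := by
    unfold fr
    simp only [div_eq_inv_mul]
    exact (EG.sum _ fun i _ => EG.sum _ fun j _ => (eg_AA q.s1 i j).pow 2).const_mul _
  rw [← Av_lf_P2 hq he]
  rfl

lemma AvZ2 (hq : q.Ok) (R : Finset (Pair n)) (w : K4 (Pair n) → ℝ) :
    Av (lf R) (Zn (A2 k q)) w = AvP q.s2 R (fun z => fr (AA k q.x q.s2 z) / n) (P3 q w) := by
  have he : EG fun z : Pair n → ℝ => fr (AA k q.x q.s2 z) / n := by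
    unfold fr
    simp only [div_eq_inv_mul]
    exact (EG.sum _ fun i _ => EG.sum _ fun j _ => (eg_AA q.s2 i j).pow 2).const_mul _
  rw [← Av_lf_P3 hq he]
  rfl

/-- the difference which the h-row controls, time `s1` -/
noncomputable def hd1 (k : ℝ) (q : Par) (b b' : Fin n) (w : K4 (Pair n) → ℝ) : ℝ :=
  1 + ee k q.x q.s1 b b' (P2 q w) -
    AvP q.s1 (row b ∪ row b') (fun z => fr (AA k q.x q.s1 z) / n) (P2 q w)

/-- the difference which the h-row controls, time `s2` -/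
noncomputable def hd2 (k : ℝ) (q : Par) (b b' : Fin n) (w : K4 (Pair n) → ℝ) : ℝ :=
  1 + ee k q.x q.s2 b b' (P3 q w) -
    AvP q.s2 (row b ∪ row b') (fun z => fr (AA k q.x q.s2 z) / n) (P3 q w)

/-- **(T4)**, time `s1` -/
theorem hrow1 (h : C11 F D B L) (hq : q.Ok) (hP : PrSk k q F M δ)
    (hI : HIn q F (A1 k q) M M2 ζ lam) :
    ∑ b, ∑ b' ∈ Finset.univ.erase b, Ew q F (fun w => hd1 k q b b' w ^ 2) ≤
      ∑ b, ∑ b' ∈ Finset.univ.erase b,
        (4 * lam b b' + 8 * (δ b b' * √(M b b')) + 2 * (ζ b b' * √(M2 b b'))) := by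
  have key := hrow_sum (p := dens q F) (Z := Zn (A1 k q)) (Rb := fun b => lf (row b))
    (ρ := fun b b' => pk (Equiv.swap b b')) (A := fun b w => H816.col (A1 k q w) b)
    (a := a1 k q) (d := a2 k q) (M := M) (M2 := M2) (δ := δ) (ζ := ζ) (lam := lam)
    (eg_dens h hq.x0) (fun b i => hI.eA i b) (eg_Zn hI.eA)
    (fun b b' hb => two_sk k q hb.symm) (fun b b' hb w => cl_self b b' _)
    (fun b b' hb => hp1 h hq.x0 hP hI hb.symm) (fun w => sum_vs_col _) dens_nonneg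
  refine le_trans (le_of_eq ?_) key
  refine Finset.sum_congr rfl fun b _ => Finset.sum_congr rfl fun b' _ => ?_
  unfold Ew
  refine integral_congr_ae (Filter.Eventually.of_forall fun w => ?_)
  simp only
  rw [← lf_union, eF1 hq, AvZ1 hq]
  rfl

/-- **(T4)**, time `s2` -/
theorem hrow2 (h : C11 F D B L) (hq : q.Ok) (hP : PrSk k q F M δ)
    (hI : HIn q F (A2 k q) M M2 ζ lam) :
    ∑ b, ∑ b' ∈ Finset.univ.erase b, Ew q F (fun w => hd2 k q b b' w ^ 2) ≤
      ∑ b, ∑ b' ∈ Finset.univ.erase b,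
        (4 * lam b b' + 8 * (δ b b' * √(M b b')) + 2 * (ζ b b' * √(M2 b b'))) := by
  have key := hrow_sum (p := dens q F) (Z := Zn (A2 k q)) (Rb := fun b => lf (row b))
    (ρ := fun b b' => pk (Equiv.swap b b')) (A := fun b w => H816.col (A2 k q w) b)
    (a := a2 k q) (d := a1 k q) (M := M) (M2 := M2) (δ := δ) (ζ := ζ) (lam := lam)
    (eg_dens h hq.x0) (fun b i => hI.eA i b) (eg_Zn hI.eA)
    (fun b b' hb => Two_symm (two_sk k q hb.symm)) (fun b b' hb w => cl_self b b' _)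
    (fun b b' hb => hp2 h hq.x0 hP hI hb.symm) (fun w => sum_vs_col _) dens_nonneg
  refine le_trans (le_of_eq ?_) key
  refine Finset.sum_congr rfl fun b _ => Finset.sum_congr rfl fun b' _ => ?_
  unfold Ew
  refine integral_congr_ae (Filter.Eventually.of_forall fun w => ?_)
  simp only
  rw [← lf_union, eF2 hq, AvZ2 hq]
  rfl

/-! ### normalized form -/

/-- the numbers: `M ≤ E m6`, `∑ δ² ≤ E dl`, `M2 ≤ E m4`, `∑ ζ² ≤ E zl`, `lam ≤ E ls` -/
structure HNb (q : Par) (F : (Pair n → ℝ) → ℝ) (M δ M2 ζ lam : Fin n → Fin n → ℝ)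
    (m6 dl m4 zl ls : ℝ) : Prop where
  m60 : 0 ≤ m6
  m40 : 0 ≤ m4
  l0 : 0 ≤ ls
  d0 : ∀ b b', b' ≠ b → 0 ≤ δ b b'
  z0 : ∀ b b', b' ≠ b → 0 ≤ ζ b b'
  hM : ∀ b b', b' ≠ b → M b b' ≤ Ew q F (fun _ => 1) * m6
  hM2 : ∀ b b', b' ≠ b → M2 b b' ≤ Ew q F (fun _ => 1) * m4
  hδ : ∑ b, ∑ b' ∈ Finset.univ.erase b, δ b b' ^ 2 ≤ Ew q F (fun _ => 1) * dl
  hζ : ∑ b, ∑ b' ∈ Finset.univ.erase b, ζ b b' ^ 2 ≤ Ew q F (fun _ => 1) * zl
  hl : ∀ b b', b' ≠ b → lam b b' ≤ Ew q F (fun _ => 1) * ls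

variable {m6 dl m4 zl ls : ℝ}

lemma HNb.err (hN : HNb q F M δ M2 ζ lam m6 dl m4 zl ls) (h : C11 F D B L) (hx : 0 < q.x) :
    ∑ b : Fin n, ∑ b' ∈ Finset.univ.erase b,
      (4 * lam b b' + 8 * (δ b b' * √(M b b')) + 2 * (ζ b b' * √(M2 b b'))) ≤
      (4 * (n ^ 2 * ls) + 8 * (n * √(m6 * dl)) + 2 * (n * √(m4 * zl))) *
        Ew q F (fun _ => 1) := by
  have hE := Ew_one_pos (q := q) h hx
  have h1 := sum_pairs_le (lam := lam) hN.hM hN.hδ hN.hl (mul_nonneg hE.le hN.l0)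
    (c := 4) (c' := 8) (by norm_num) (by norm_num) (mul_nonneg hE.le hN.m60) hN.d0
  have h2 := sum_pairs_le (lam := fun _ _ => 0) (ls := 0) hN.hM2 hN.hζ (fun _ _ _ => le_rfl) le_rfl
    (c := 0) (c' := 2) le_rfl (by norm_num) (mul_nonneg hE.le hN.m40) hN.z0
  rw [err_scale hE] at h1
  have e2 : (0 : ℝ) = Ew q F (fun _ => 1) * 0 := by ring
  rw [e2, err_scale hE] at h2
  simp only [Finset.sum_add_distrib] at h1 h2 ⊢
  simp only [mul_zero, Finset.sum_const_zero, zero_add] at h2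
  linarith

/-- **(T4)**, time `s1`, normalized -/
theorem hrow1_n (h : C11 F D B L) (hq : q.Ok) (hP : PrSk k q F M δ)
    (hI : HIn q F (A1 k q) M M2 ζ lam) (hN : HNb q F M δ M2 ζ lam m6 dl m4 zl ls) :
    ∑ b, ∑ b' ∈ Finset.univ.erase b, En q F (fun w => hd1 k q b b' w ^ 2) ≤
      4 * (n ^ 2 * ls) + 8 * (n * √(m6 * dl)) + 2 * (n * √(m4 * zl)) := by
  have hE := Ew_one_pos (q := q) h hq.x0
  rw [En_sum, div_le_iff₀ hE]
  exact (hrow1 h hq hP hI).trans (hN.err h hq.x0)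

/-- **(T4)**, time `s2`, normalized -/
theorem hrow2_n (h : C11 F D B L) (hq : q.Ok) (hP : PrSk k q F M δ)
    (hI : HIn q F (A2 k q) M M2 ζ lam) (hN : HNb q F M δ M2 ζ lam m6 dl m4 zl ls) :
    ∑ b, ∑ b' ∈ Finset.univ.erase b, En q F (fun w => hd2 k q b b' w ^ 2) ≤
      4 * (n ^ 2 * ls) + 8 * (n * √(m6 * dl)) + 2 * (n * √(m4 * zl)) := by
  have hE := Ew_one_pos (q := q) h hq.x0
  rw [En_sum, div_le_iff₀ hE]
  exact (hrow2 h hq hP hI).trans (hN.err h hq.x0)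

end Vale.Agent.P146.R1C
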