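import Vale.Agent.P146.H604.HRowSk
import Vale.Agent.P146.H706.LawS

/-!
R1, block C, the h-row: the inputs. Touch of `fr A / n` (Poincare inequality in the rows), the law
change of the three functionals, moments of `fr A / n`.
-/

open MeasureTheory ProbabilityTheory

namespace Vale.Agent.P146.R1C

open Vale.Agent.P157.Lv Vale.Agent.P146.H425 Vale.Agent.P146.H332 Vale.Agent.P146.H325
  Vale.Agent.P146.H712 Vale.Agent.P146.R1 Vale.Agent.P146.H816 Vale.Agent.P146.H604 Matrix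

set_option linter.unusedSectionVars false

variable {n : ℕ} {k x s : ℝ} {q : Par}

/-! ### the touch of the normalized square -/

section touch

variable {C : (Pair n → ℝ) → Matrix (Fin n) (Fin n) ℝ}
  {E : Pair n → (Pair n → ℝ) → Matrix (Fin n) (Fin n) ℝ} {R : Finset (Pair n)}

/-- **The touch of `fr C / n`** for a matrix of functions of a position. -/
theorem touch_Zn (c : Fin 4 → ℝ) (hC : ∀ i j, EG fun z => C z i j)
    (hE : ∀ e i j, EG fun z => E e z i j)
    (hd : ∀ e i j, PD e (fun z => C z i j) (fun z => E e z i j))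
    {φ : (K4 (Pair n) → ℝ) → ℝ} (hφ : EG φ) (h0 : ∀ w, 0 ≤ φ w) (hi : Ind (lf R) φ) :
    ∫ w, φ w * (Zn (fun w => C (H712.lp c w)) w - Av (lf R) (Zn fun w => C (H712.lp c w)) w) ^ 2
        ∂(gI (K4 (Pair n))) ≤
      4 * (c 0 ^ 2 + c 1 ^ 2 + c 2 ^ 2 + c 3 ^ 2) / n ^ 2 *
        ∫ w, φ w * (fr (C (H712.lp c w)) * ∑ e ∈ R, fr (E e (H712.lp c w)))
          ∂(gI (K4 (Pair n))) := by
  have hCl : ∀ i j, EG fun w : K4 (Pair n) → ℝ => C (H712.lp c w) i j := fun i j => eg_lp c (hC i j)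
  have hEl : ∀ e i j, EG fun w : K4 (Pair n) → ℝ => E e (H712.lp c w) i j :=
    fun e i j => eg_lp c (hE e i j)
  have hg : ∀ e, EG fun w : K4 (Pair n) → ℝ => ip (C (H712.lp c w)) (E e (H712.lp c w)) := by
    intro e
    unfold ip
    exact EG.sum _ fun i _ => EG.sum _ fun j _ => (hCl i j).mul (hEl e i j)
  have hF' : ∀ j : K4 (Pair n), EG fun w : K4 (Pair n) → ℝ =>
      c (bl j) * ((n : ℝ)⁻¹ * (2 * ip (C (H712.lp c w)) (E (bs j) (H712.lp c w)))) := fun j =>
    (((hg _).const_mul 2).const_mul _).const_mul _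
  have hpd : ∀ j ∈ lf R, PD j (Zn fun w => C (H712.lp c w)) (fun w : K4 (Pair n) → ℝ =>
      c (bl j) * ((n : ℝ)⁻¹ * (2 * ip (C (H712.lp c w)) (E (bs j) (H712.lp c w))))) := by
    intro j _
    have h1 : PD (bs j) (fun z => (n : ℝ)⁻¹ * fr (C z))
        (fun z => (n : ℝ)⁻¹ * (2 * ip (C z) (E (bs j) z))) := by
      have h2 : PD (bs j) (fun z => fr (C z)) (fun z => 2 * ip (C z) (E (bs j) z)) := by
        have h3 : PD (bs j) (fun z => ∑ i, ∑ l, C z i l * C z i l)
            (fun z => ∑ i, ∑ l, (E (bs j) z i l * C z i l + C z i l * E (bs j) z i l)) :=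
          PD.sum _ fun i _ => PD.sum _ fun l _ => (hd (bs j) i l).mul (hd (bs j) i l)
        have e1 : (fun z => fr (C z)) = fun z => ∑ i, ∑ l, C z i l * C z i l := by
          funext z
          unfold fr
          exact Finset.sum_congr rfl fun i _ => Finset.sum_congr rfl fun l _ => sq _
        rw [e1]
        refine h3.congr fun z => ?_
        unfold ip
        rw [Finset.mul_sum]
        refine Finset.sum_congr rfl fun i _ => ?_
        rw [Finset.mul_sum]
        exact Finset.sum_congr rfl fun l _ => by ring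
      exact h2.const_mul _
    have h4 := pd_lp c h1
    have e2 : (Zn fun w => C (H712.lp c w)) =
        fun w : K4 (Pair n) → ℝ => (n : ℝ)⁻¹ * fr (C (H712.lp c w)) := by
      funext w
      unfold Zn
      rw [div_eq_inv_mul]
    rw [e2]
    exact h4
  have h1 := weighted_poincare hφ hi h0 (eg_Zn hCl) hpd (fun j _ => hF' j)
  refine h1.trans ?_
  rw [← integral_const_mul]
  have hfr : ∀ e, EG fun w : K4 (Pair n) → ℝ => fr (E e (H712.lp c w)) := fun e => eg_fr (hEl e)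
  refine integral_mono (hφ.mul (EG.sum _ fun j _ => (hF' j).pow 2)).integrable
    ((hφ.mul ((eg_fr hCl).mul (EG.sum R fun e _ => hfr e))).const_mul _).integrable fun w => ?_
  show φ w * ∑ j ∈ lf R, (c (bl j) * ((n : ℝ)⁻¹ * (2 * ip (C (H712.lp c w))
    (E (bs j) (H712.lp c w))))) ^ 2 ≤ 4 * (c 0 ^ 2 + c 1 ^ 2 + c 2 ^ 2 + c 3 ^ 2) / n ^ 2 *
      (φ w * (fr (C (H712.lp c w)) * ∑ e ∈ R, fr (E e (H712.lp c w))))
  rw [sum_lp_sq c R fun e => (n : ℝ)⁻¹ * (2 * ip (C (H712.lp c w)) (E e (H712.lp c w)))]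
  have h2 : ∑ e ∈ R, ((n : ℝ)⁻¹ * (2 * ip (C (H712.lp c w)) (E e (H712.lp c w)))) ^ 2 ≤
      4 / n ^ 2 * (fr (C (H712.lp c w)) * ∑ e ∈ R, fr (E e (H712.lp c w))) := by
    rw [Finset.mul_sum, Finset.mul_sum]
    refine Finset.sum_le_sum fun e _ => ?_
    have h3 : ip (C (H712.lp c w)) (E e (H712.lp c w)) ^ 2 ≤
        fr (C (H712.lp c w)) * fr (E e (H712.lp c w)) := by
      have h4 := pow_le_pow_left₀ (abs_nonneg _)
        (H522.ip_le_nf (C (H712.lp c w)) (E e (H712.lp c w))) 2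
      rw [sq_abs, mul_pow] at h4
      unfold H522.nf at h4
      rwa [Real.sq_sqrt (H332.fr_nonneg _), Real.sq_sqrt (H332.fr_nonneg _)] at h4
    have h5 : ((n : ℝ)⁻¹ * (2 * ip (C (H712.lp c w)) (E e (H712.lp c w)))) ^ 2 =
        4 / n ^ 2 * ip (C (H712.lp c w)) (E e (H712.lp c w)) ^ 2 := by
      rw [div_eq_mul_inv, ← inv_pow]
      ring
    rw [h5]
    exact mul_le_mul_of_nonneg_left h3 (by positivity)
  have h6 : 0 ≤ c 0 ^ 2 + c 1 ^ 2 + c 2 ^ 2 + c 3 ^ 2 := by positivity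
  have h7 := mul_le_mul_of_nonneg_left (mul_le_mul_of_nonneg_left h2 h6) (h0 w)
  refine h7.trans (le_of_eq ?_)
  ring

end touch

end Vale.Agent.P146.R1C
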